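import Vale.Agent.P181.MR.Defs

set_option autoImplicit false

/-!
# P181, MR, row [PAR]: the parameters (pure arithmetic)
-/

namespace Vale.Agent.P181.MR.H708

open Vale.Agent.P181.MR

theorem partA (a b X R : ℕ) (hX : 2 ≤ X) (cp : ∀ j, j ≤ 13 → 64 * X ^ j ≤ a) (hab : 200 * a ≤ b)
    (hba : b ≤ X * a) (hR : 2 ≤ R) (hRX : R ≤ X ^ 2) :
    ∃ ν B h : ℕ, ν = (R - 1) * X ^ 3 + 1 ∧ X ^ 3 + 1 ≤ ν ∧ ν ≤ X ^ 5 ∧ 64 * ν ≤ a ∧ 2 ≤ B ∧
      8 * (ν * B) ≤ 5 * a ∧ a < 2 * (ν * B) ∧ 1 ≤ h ∧ 4 * (ν * (h * B)) ≤ b ∧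
      79 * b ≤ 320 * (ν * (h * B)) ∧ h * ν ≤ X ^ 6 := by
  have hX1 : 1 ≤ X := by omega
  obtain ⟨ν, hν⟩ : ∃ ν, ν = (R - 1) * X ^ 3 + 1 := ⟨_, rfl⟩
  obtain ⟨r, hr⟩ : ∃ r, R = r + 1 := ⟨R - 1, by omega⟩
  have hr1 : 1 ≤ r := by omega
  have hν' : ν = r * X ^ 3 + 1 := by rw [hν, hr, Nat.add_sub_cancel]
  have hX3 : 1 ≤ X ^ 3 := Nat.one_le_pow 3 X hX1
  have hν1 : X ^ 3 + 1 ≤ ν := by
    rw [hν']
    exact Nat.add_le_add_right (Nat.le_mul_of_pos_left _ hr1) 1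
  have hν2 : ν ≤ X ^ 5 := by
    calc ν ≤ r * X ^ 3 + X ^ 3 := by rw [hν']; exact Nat.add_le_add_left hX3 _
      _ = R * X ^ 3 := by rw [hr]; ring
      _ ≤ X ^ 2 * X ^ 3 := Nat.mul_le_mul_right _ hRX
      _ = X ^ 5 := by ring
  have hν0 : 0 < ν := by omega
  have hνa : 64 * ν ≤ a := (Nat.mul_le_mul_left _ hν2).trans (cp 5 (by norm_num))
  obtain ⟨B, hB⟩ : ∃ B, B = 5 * a / (8 * ν) := ⟨_, rfl⟩
  have hB1 : 8 * (ν * B) ≤ 5 * a := by
    have h1 := Nat.mul_div_le (5 * a) (8 * ν)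
    rw [← hB] at h1
    calc 8 * (ν * B) = 8 * ν * B := by ring
      _ ≤ 5 * a := h1
  have hB2 : 5 * a < 8 * (ν * B) + 8 * ν := by
    have h1 := Nat.lt_mul_div_succ (5 * a) (show 0 < 8 * ν by omega)
    rw [← hB] at h1
    calc 5 * a < 8 * ν * (B + 1) := h1
      _ = 8 * (ν * B) + 8 * ν := by ring
  have hB3 : a < 2 * (ν * B) := by clear hν hν' hν1 hν2; omega
  have hB0 : 2 ≤ B := by
    by_contra hh
    have h1 : B ≤ 1 := by omega
    have h2 : ν * B ≤ ν * 1 := Nat.mul_le_mul_left _ h1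
    clear hν hν' hν1 hν2
    omega
  have hνB : 0 < ν * B := by positivity
  obtain ⟨h, hh⟩ : ∃ h, h = b / (4 * (ν * B)) := ⟨_, rfl⟩
  have hh1 : 4 * (ν * (h * B)) ≤ b := by
    have h1 := Nat.mul_div_le b (4 * (ν * B))
    rw [← hh] at h1
    calc 4 * (ν * (h * B)) = 4 * (ν * B) * h := by ring
      _ ≤ b := h1
  have hh2 : b < 4 * (ν * (h * B)) + 4 * (ν * B) := by
    have h1 := Nat.lt_mul_div_succ b (show 0 < 4 * (ν * B) by omega)
    rw [← hh] at h1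
    calc b < 4 * (ν * B) * (h + 1) := h1
      _ = 4 * (ν * (h * B)) + 4 * (ν * B) := by ring
  have hh0 : 1 ≤ h := by
    rw [hh]
    apply Nat.div_pos _ (by omega)
    clear hν hν' hν1 hν2 hh hB hh1 hh2
    omega
  have hd3 : 79 * b ≤ 320 * (ν * (h * B)) := by
    clear hν hν' hν1 hν2 hh hB hh1
    omega
  refine ⟨ν, B, h, hν, hν1, hν2, hνa, hB0, hB1, hB3, hh0, hh1, hd3, ?_⟩
  have h1 : B * (4 * (h * ν)) ≤ B * (2 * (X * ν)) := by
    calc B * (4 * (h * ν)) = 4 * (ν * (h * B)) := by ring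
      _ ≤ b := hh1
      _ ≤ X * a := hba
      _ ≤ X * (2 * (ν * B)) := Nat.mul_le_mul_left _ hB3.le
      _ = B * (2 * (X * ν)) := by ring
  have h2 : 4 * (h * ν) ≤ 2 * (X * ν) := Nat.le_of_mul_le_mul_left h1 (by omega)
  calc h * ν ≤ X * ν := by omega
    _ ≤ X * X ^ 5 := Nat.mul_le_mul_left _ hν2
    _ = X ^ 6 := by ring

theorem partB (a b X R w ν d F E D1 F1 : ℕ) (hX : 2 ≤ X) (c1 : 64 * X ^ 13 ≤ a)
    (cp : ∀ j, j ≤ 13 → 64 * X ^ j ≤ a) (hba : b ≤ X * a) (hRX : R ≤ X ^ 2)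
    (haw : a ^ 2 ≤ X * w) (hν2 : ν ≤ X ^ 5) (hd1 : 4 * (ν * d) ≤ b)
    (hd4 : 4 * X ^ 2 * d ≤ a) (hF1 : F ≤ X ^ 6) (hE : E = d * ν * X ^ 3)
    (hD1b : 2 * D1 ≤ d * d) (hF1b : 2 * F1 ≤ F * F) :
    R * E + F1 + ν * (d * d + D1) ≤ w ∧ R * E + F1 + ν * (d * (F + ν) + D1) ≤ w := by
  have hE1 : 4 * E ≤ X ^ 4 * a := by
    calc 4 * E = X ^ 3 * (4 * (ν * d)) := by rw [hE]; ring
      _ ≤ X ^ 3 * (X * a) := Nat.mul_le_mul_left _ (hd1.trans hba)
      _ = X ^ 4 * a := by ring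
  have p1 : 16 * (X * (R * E)) ≤ a * a := by
    calc 16 * (X * (R * E)) ≤ 16 * (X * (X ^ 2 * E)) := by gcongr
      _ = 4 * X ^ 3 * (4 * E) := by ring
      _ ≤ 4 * X ^ 3 * (X ^ 4 * a) := Nat.mul_le_mul_left _ hE1
      _ = (4 * X ^ 7) * a := by ring
      _ ≤ a * a := by
          apply Nat.mul_le_mul_right
          have := cp 7 (by norm_num)
          omega
  have p2 : 64 * (X * F1) ≤ a * a := by
    calc 64 * (X * F1) ≤ 64 * (X * (F * F)) := by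
          apply Nat.mul_le_mul_left; apply Nat.mul_le_mul_left; omega
      _ ≤ 64 * (X * (X ^ 6 * X ^ 6)) := by gcongr
      _ = 64 * X ^ 13 := by ring
      _ ≤ a := c1
      _ ≤ a * a := Nat.le_mul_self a
  have p3 : 16 * (X * (ν * (d * d))) ≤ a * a := by
    calc 16 * (X * (ν * (d * d))) = 4 * X * d * (4 * (ν * d)) := by ring
      _ ≤ 4 * X * d * (X * a) := Nat.mul_le_mul_left _ (hd1.trans hba)
      _ = (4 * X ^ 2 * d) * a := by ring
      _ ≤ a * a := Nat.mul_le_mul_right _ hd4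
  have p4 : 4 * (X * (ν * (d * (F + ν)))) ≤ a * a := by
    calc 4 * (X * (ν * (d * (F + ν)))) = (X * (F + ν)) * (4 * (ν * d)) := by ring
      _ ≤ (X * (X ^ 6 + X ^ 5)) * (X * a) := by
          apply Nat.mul_le_mul
          · apply Nat.mul_le_mul_left
            exact Nat.add_le_add hF1 hν2
          · exact hd1.trans hba
      _ = (X ^ 8 + X ^ 7) * a := by ring
      _ ≤ a * a := by
          apply Nat.mul_le_mul_right
          have := cp 8 (by norm_num)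
          have := cp 7 (by norm_num)
          omega
  have p5 : X * (ν * D1) * 2 ≤ X * (ν * (d * d)) := by
    calc X * (ν * D1) * 2 = X * (ν * (2 * D1)) := by ring
      _ ≤ X * (ν * (d * d)) := by gcongr
  have hsq : a ^ 2 = a * a := sq a
  clear hE1 hE hd1 hd4 hba hRX hν2 hF1 hD1b hF1b c1 cp
  constructor
  · have h1 : X * (R * E + F1 + ν * (d * d + D1)) ≤ X * w := by
      refine le_trans ?_ haw
      have : X * (R * E + F1 + ν * (d * d + D1)) =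
          X * (R * E) + X * F1 + X * (ν * (d * d)) + X * (ν * D1) := by ring
      rw [this, hsq]
      omega
    exact Nat.le_of_mul_le_mul_left h1 (by omega)
  · have h1 : X * (R * E + F1 + ν * (d * (F + ν) + D1)) ≤ X * w := by
      refine le_trans ?_ haw
      have : X * (R * E + F1 + ν * (d * (F + ν) + D1)) =
          X * (R * E) + X * F1 + X * (ν * (d * (F + ν))) + X * (ν * D1) := by ring
      rw [this, hsq]
      omega
    exact Nat.le_of_mul_le_mul_left h1 (by omega)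

theorem partC (a b w ν d F RE D1 F1 : ℕ) (hν0 : 0 < ν) (hd0 : 2 ≤ d)
    (hw : 100 * w ≤ a * b) (hd3 : 79 * b ≤ 320 * (ν * d))
    (low1 : RE + F1 + ν * (d * d + D1) ≤ w) (low2 : RE + F1 + ν * (d * (F + ν) + D1) ≤ w) :
    ∃ s e l : ℕ, e < d ∧ l < ν ∧ w = RE + (ν * (d * s + D1 + e) + (F1 + l)) ∧ d ≤ s ∧
      F + ν ≤ s ∧ 20 * s ≤ a := by
  obtain ⟨T, hT⟩ : ∃ T, w = RE + F1 + T := ⟨w - (RE + F1), by omega⟩
  have hq : ν * (T / ν) + T % ν = T := Nat.div_add_mod T ν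
  have hlt : T % ν < ν := Nat.mod_lt _ hν0
  have q1 : d * d + D1 ≤ T / ν := by
    rw [Nat.le_div_iff_mul_le hν0, mul_comm]
    omega
  have q2 : d * (F + ν) + D1 ≤ T / ν := by
    rw [Nat.le_div_iff_mul_le hν0, mul_comm]
    omega
  have hTw : T ≤ w := by omega
  clear low1 low2
  obtain ⟨u, hu⟩ : ∃ u, T / ν = D1 + u := ⟨T / ν - D1, by omega⟩
  have hu2 : d * (u / d) + u % d = u := Nat.div_add_mod u d
  have het : u % d < d := Nat.mod_lt _ (by omega)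
  rw [hu] at hq q1 q2
  refine ⟨u / d, u % d, T % ν, het, hlt, ?_, ?_, ?_, ?_⟩
  · have h1 : T = ν * (d * (u / d) + D1 + u % d) + T % ν := by
      have h2 : d * (u / d) + D1 + u % d = D1 + u := by omega
      rw [h2]
      exact hq.symm
    omega
  · rw [Nat.le_div_iff_mul_le (by omega)]
    omega
  · rw [Nat.le_div_iff_mul_le (by omega), mul_comm]
    omega
  · have h0 : d * (u / d) ≤ D1 + u := by omega
    have h1 : ν * (d * (u / d)) ≤ w :=
      (Nat.mul_le_mul_left _ h0).trans (by omega)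
    have hb5 : b ≤ 5 * (ν * d) := by omega
    have h2 : (ν * d) * (100 * (u / d)) ≤ (ν * d) * (5 * a) := by
      calc (ν * d) * (100 * (u / d)) = 100 * (ν * (d * (u / d))) := by ring
        _ ≤ 100 * w := Nat.mul_le_mul_left _ h1
        _ ≤ a * b := hw
        _ ≤ a * (5 * (ν * d)) := Nat.mul_le_mul_left _ hb5
        _ = (ν * d) * (5 * a) := by ring
    have h3 := Nat.le_of_mul_le_mul_left h2 (by positivity)
    clear hq hu hT hu2
    omega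

theorem par : ParM := by
  intro a b X R w hX hXa hab hba hR hRX hw haw
  have hX1 : 1 ≤ X := by omega
  have c1 : 64 * X ^ 13 ≤ a := by
    calc 64 * X ^ 13 ≤ X ^ 27 * X ^ 13 := Nat.mul_le_mul_right _
          ((by norm_num : 64 ≤ 2 ^ 27).trans (Nat.pow_le_pow_left hX 27))
      _ = X ^ 40 := by ring
      _ ≤ a := hXa
  clear hXa
  have cp : ∀ j, j ≤ 13 → 64 * X ^ j ≤ a := fun j hj =>
    (Nat.mul_le_mul_left _ (Nat.pow_le_pow_right hX1 hj)).trans c1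
  obtain ⟨ν, B, h, hν, hν1, hν2, hνa, hB0, hB1, hB3, hh0, hh1, hd3, hF1⟩ :=
    partA a b X R hX cp hab hba hR hRX
  have hν0 : 0 < ν := by omega
  obtain ⟨d, hd⟩ : ∃ d, d = h * B := ⟨_, rfl⟩
  obtain ⟨F, hF⟩ : ∃ F, F = h * ν := ⟨_, rfl⟩
  rw [← hd] at hh1 hd3
  rw [← hF] at hF1
  have hd0 : 2 ≤ d := by
    rw [hd]
    exact hB0.trans (Nat.le_mul_of_pos_left _ hh0)
  have hd4 : 4 * X ^ 2 * d ≤ a := by
    have h1 : X * (4 * X ^ 2 * d) ≤ X * a := by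
      calc X * (4 * X ^ 2 * d) = 4 * (X ^ 3 * d) := by ring
        _ ≤ 4 * (ν * d) := by
          apply Nat.mul_le_mul_left
          apply Nat.mul_le_mul_right
          omega
        _ ≤ b := hh1
        _ ≤ X * a := hba
    exact Nat.le_of_mul_le_mul_left h1 (by omega)
  obtain ⟨E, hE⟩ : ∃ E, E = d * ν * X ^ 3 := ⟨_, rfl⟩
  obtain ⟨D1, hD1⟩ : ∃ D1, D1 = ∑ i ∈ Finset.range d, i := ⟨_, rfl⟩
  obtain ⟨F1, hF1'⟩ : ∃ F1, F1 = ∑ i ∈ Finset.range F, i := ⟨_, rfl⟩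
  have hD1b : 2 * D1 ≤ d * d := by
    have := Finset.sum_range_id_mul_two d
    rw [← hD1] at this
    calc 2 * D1 = D1 * 2 := by ring
      _ = d * (d - 1) := this
      _ ≤ d * d := Nat.mul_le_mul_left _ (Nat.sub_le _ _)
  have hF1b : 2 * F1 ≤ F * F := by
    have := Finset.sum_range_id_mul_two F
    rw [← hF1'] at this
    calc 2 * F1 = F1 * 2 := by ring
      _ = F * (F - 1) := this
      _ ≤ F * F := Nat.mul_le_mul_left _ (Nat.sub_le _ _)
  obtain ⟨low1, low2⟩ := partB a b X R w ν d F E D1 F1 hX c1 cp hba hRX haw hν2 hh1 hd4 hF1 hE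
    hD1b hF1b
  obtain ⟨s, e, l, he, hl, hw2, s1, s2, s3⟩ := partC a b w ν d F (R * E) D1 F1 hν0 hd0 hw hd3
    low1 low2
  clear low1 low2 hD1b hF1b
  have hE1 : E ≤ X ^ 4 * a := by
    calc E = X ^ 3 * (ν * d) := by rw [hE]; ring
      _ ≤ X ^ 3 * (X * a) := Nat.mul_le_mul_left _ (by omega)
      _ = X ^ 4 * a := by ring
  have hBν : a < 4 * (B * (ν - 1)) ∧ B * (ν - 1) ≤ ν * B := by
    obtain ⟨n, hn⟩ : ∃ n, ν = n + 1 := ⟨ν - 1, by omega⟩
    have hn1 : 1 ≤ n := by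
      have : 1 ≤ X ^ 3 := Nat.one_le_pow 3 X hX1
      omega
    rw [hn, Nat.add_sub_cancel]
    rw [hn] at hB3
    have h1 : (n + 1) * B = B * n + B := by ring
    have h2 : B ≤ B * n := Nat.le_mul_of_pos_right _ hn1
    rw [h1] at hB3 ⊢
    constructor
    · omega
    · omega
  have hd16 : 16 * d ≤ a := by
    have : 4 ≤ X ^ 2 := Nat.pow_le_pow_left hX 2
    calc 16 * d = 4 * 4 * d := by ring
      _ ≤ 4 * X ^ 2 * d := by gcongr
      _ ≤ a := hd4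
  have hM64 := cp 3 (by norm_num)
  have hF64 := cp 6 (by norm_num)
  have hd5 : d ≤ 2 * (d / 2) + 1 := by omega
  have g1 : s + d + X ^ 3 < B * (ν - 1) := by
    have := hBν.1
    clear hw2 hE hν hd hF hD1 hF1'
    omega
  have g2 : B * (ν - 1) + F + ν ≤ a := by
    have := hBν.2
    clear hw2 hE hν hd hF hD1 hF1'
    omega
  have g3 : 3 * (d * ν + F) ≤ b := by
    rw [mul_comm d ν]
    clear hw2 hE hν hd hF hD1 hF1'
    omega
  have g4 : b ≤ 12 * (ν * (d / 2)) := by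
    have h1 : ν * d ≤ ν * (2 * (d / 2) + 1) := Nat.mul_le_mul_left _ hd5
    have h2 : ν * (2 * (d / 2) + 1) = 2 * (ν * (d / 2)) + ν := by ring
    rw [h2] at h1
    clear hw2 hE hν hd hF hD1 hF1'
    omega
  have g5 : 8 * (ν * (d / 2)) ≤ b := by
    have h1 : ν * (2 * (d / 2)) ≤ ν * d := Nat.mul_le_mul_left _ (Nat.mul_div_le d 2)
    have h2 : ν * (2 * (d / 2)) = 2 * (ν * (d / 2)) := by ring
    rw [h2] at h1
    clear hw2 hE hν hd hF hD1 hF1'
    omega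
  have g6 : d * ν ≤ 3 * (ν * (d / 2)) := by
    have h1 : d ≤ 3 * (d / 2) := by omega
    calc d * ν = ν * d := mul_comm _ _
      _ ≤ ν * (3 * (d / 2)) := Nat.mul_le_mul_left _ h1
      _ = 3 * (ν * (d / 2)) := by ring
  rw [hD1, hF1'] at hw2
  exact ⟨X ^ 3, h, B, ν, d, E, F, s, e, l, Nat.one_le_pow 3 X hX1, hh0, by omega, hν, hd, hE, hF,
    hd0, he, hl, hw2, s1, s2, g1, g2, g3, hE1,
    hν2.trans (Nat.pow_le_pow_right hX1 (by norm_num)), g4, g5, g6⟩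

end Vale.Agent.P181.MR.H708
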